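import Vale.Agent.P160.Few.Defs
import Vale.Agent.P160.LO
import Vale.Agent.P160.Step

/-! Row CHAINW: exposing the rows outside `R` one by one. -/

open Finset

namespace Vale.Agent.P160.Few

namespace CW

open Classical in
/-- fresh columns of row `a` -/
noncomputable def J {n : ℕ} (S R : Finset (Fin n)) (a : Fin n) : Finset (Fin n) :=
  if a ∈ S then {j ∈ S \ R | a ≤ j} else S

theorem card_J {n : ℕ} (S R : Finset (Fin n)) (a : Fin n) : #(J S R a) = fresh S R a := by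
  unfold J fresh
  split_ifs
  · congr
  · rfl

theorem J_sub {n : ℕ} {S R : Finset (Fin n)} {a j : Fin n} (h : j ∈ J S R a) : j ∈ S := by
  unfold J at h
  split_ifs at h
  · exact (mem_sdiff.1 (mem_filter.1 h).1).1
  · exact h

theorem J_spec {n : ℕ} {S R : Finset (Fin n)} {a j : Fin n} (h : j ∈ J S R a) (ha : a ∈ S) :
    j ∉ R ∧ a ≤ j := by
  unfold J at h
  rw [if_pos ha] at h
  exact ⟨(mem_sdiff.1 (mem_filter.1 h).1).2, (mem_filter.1 h).2⟩

open Classical in
/-- fresh entries of row `a` -/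
noncomputable def F {n : ℕ} (S R : Finset (Fin n)) (a : Fin n) : Finset (Sym2 (Fin n)) :=
  (J S R a).image fun j => s(a, j)

theorem inj {n : ℕ} (a : Fin n) : Function.Injective fun j : Fin n => s(a, j) := by
  intro i j h
  have h' : s(a, i) = s(a, j) := h
  rw [Sym2.eq_iff] at h'
  rcases h' with ⟨_, h⟩ | ⟨h1, h2⟩
  · exact h
  · exact h2.trans h1

theorem card_F {n : ℕ} (S R : Finset (Fin n)) (a : Fin n) : #(F S R a) = fresh S R a := by
  unfold F
  rw [card_image_of_injective _ (inj a), card_J]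

theorem mem_F {n : ℕ} {S R : Finset (Fin n)} {a j : Fin n} : s(a, j) ∈ F S R a ↔ j ∈ J S R a := by
  unfold F
  rw [mem_image]
  constructor
  · rintro ⟨i, hi, h⟩
    have := inj a h
    rwa [← this]
  · intro h
    exact ⟨j, h, rfl⟩

/-- an entry of `R x S` is not fresh -/
theorem notMem_F_of_R {n : ℕ} {S R : Finset (Fin n)} {a i j : Fin n} (ha : a ∉ R) (hi : i ∈ R)
    (hj : j ∈ S) : s(i, j) ∉ F S R a := by
  intro h
  unfold F at h
  rw [mem_image] at h
  obtain ⟨k, hk, h⟩ := h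
  rw [Sym2.eq_iff] at h
  rcases h with ⟨h1, _⟩ | ⟨h1, h2⟩
  · exact ha (h1 ▸ hi)
  · subst h1
    have := J_spec hk hj
    exact this.1 (h2 ▸ hi)

/-- an entry of a row `m < a` with column in `S` is not fresh for `a` -/
theorem notMem_F_of_lt {n : ℕ} {S R : Finset (Fin n)} {a m j : Fin n} (hm : m < a)
    (hj : j ∈ S) : s(m, j) ∉ F S R a := by
  intro h
  unfold F at h
  rw [mem_image] at h
  obtain ⟨k, hk, h⟩ := h
  rw [Sym2.eq_iff] at h
  rcases h with ⟨h1, _⟩ | ⟨h1, h2⟩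
  · exact absurd h1 (ne_of_gt hm)
  · subst h1
    have := (J_spec hk hj).2
    rw [h2] at this
    exact absurd hm (not_lt.2 this)

open Classical in
noncomputable def X {n : ℕ} (S : Finset (Fin n)) (W : (Sym2 (Fin n) → Bool) → Fin n → ℝ)
    (Q : Finset (Fin n)) : Finset (Sym2 (Fin n) → Bool) :=
  univ.filter fun s => (∀ j, W s j ≠ 0 ↔ j ∈ S) ∧ ∀ m ∈ Q, (mat s).mulVec (W s) m = 0

theorem row_eq {n : ℕ} (s : Sym2 (Fin n) → Bool) (w : Fin n → ℝ) (m : Fin n) :
    (mat s).mulVec w m = ∑ j, sg (s s(m, j)) * w j := rfl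

theorem inv {n : ℕ} {S R : Finset (Fin n)} {W : (Sym2 (Fin n) → Bool) → Fin n → ℝ}
    (hW : ∀ s t : Sym2 (Fin n) → Bool, (∀ i ∈ R, ∀ j ∈ S, s s(i, j) = t s(i, j)) → W s = W t)
    {a : Fin n} (ha : a ∉ R) {s t : Sym2 (Fin n) → Bool} (h : ∀ e, e ∉ F S R a → t e = s e) :
    W t = W s :=
  hW t s fun _ hi _ hj => h _ (notMem_F_of_R ha hi hj)

theorem mem_F' {n : ℕ} {S R : Finset (Fin n)} {a : Fin n} {e : Sym2 (Fin n)}
    (he : e ∈ F S R a) : ∃ j ∈ J S R a, s(a, j) = e := by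
  unfold F at he
  exact mem_image.1 he

theorem sum_F {n : ℕ} (S R : Finset (Fin n)) (a : Fin n) (g : Sym2 (Fin n) → ℝ) :
    ∑ e ∈ F S R a, g e = ∑ j ∈ J S R a, g s(a, j) := by
  unfold F
  exact sum_image fun i _ j _ h => inj a h

open Classical in
theorem fibre {n : ℕ} [D : DecidableEq (Sym2 (Fin n))] (S R : Finset (Fin n))
    (W : (Sym2 (Fin n) → Bool) → Fin n → ℝ)
    (hW : ∀ s t : Sym2 (Fin n) → Bool, (∀ i ∈ R, ∀ j ∈ S, s s(i, j) = t s(i, j)) → W s = W t)
    (a : Fin n) (ha : a ∉ R) (P : (Sym2 (Fin n) → Bool) → Prop)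
    (hP : ∀ t, P t → (∀ j, W t j ≠ 0 ↔ j ∈ S) ∧ (mat t).mulVec (W t) a = 0)
    (s : Sym2 (Fin n) → Bool) :
    #{x : F S R a → Bool | P (glue (F S R a) s x)} ≤
      (#(F S R a)).choose (#(F S R a) / 2) := by
  have hWg : ∀ x, W (glue (F S R a) s x) = W s := fun x =>
    inv hW ha fun e he => by unfold glue; rw [dif_neg he]
  by_cases hs : ∀ j, W s j ≠ 0 ↔ j ∈ S
  swap
  · have : #{x : F S R a → Bool | P (glue (F S R a) s x)} = 0 := by
      rw [card_eq_zero, filter_eq_empty_iff]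
      intro x _ hx
      have h := (hP _ hx).1
      rw [hWg x] at h
      exact hs h
    rw [this]
    exact Nat.zero_le _
  let v : Sym2 (Fin n) → ℝ := fun e => if h : ∃ j ∈ J S R a, s(a, j) = e then W s h.choose else 0
  have hv : ∀ j ∈ J S R a, v s(a, j) = W s j := by
    intro j hj
    have hex : ∃ i ∈ J S R a, s(a, i) = s(a, j) := ⟨j, hj, rfl⟩
    have h1 : v s(a, j) = W s hex.choose := by
      simp only [v]
      rw [dif_pos hex]
    rw [h1]
    congr 1
    exact inj a hex.choose_spec.2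
  have hv0 : ∀ e ∈ F S R a, v e ≠ 0 := by
    intro e he
    obtain ⟨j, hj, rfl⟩ := mem_F' he
    rw [hv j hj]
    exact (hs j).2 (J_sub hj)
  have hu : ∀ (I : Fintype (F S R a → Bool)) (x : F S R a → Bool), x ∈ @Finset.univ _ I :=
    fun I x => @Finset.mem_univ _ I x
  refine le_trans (card_le_card_of_injOn id ?_ Function.injective_id.injOn) (lo (F S R a) v hv0
    (-(∑ j ∈ (J S R a)ᶜ, sg (s s(a, j)) * W s j)))
  intro x hx
  have hx := (hP _ (mem_filter.1 (mem_coe.1 hx)).2).2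
  refine mem_coe.2 (mem_filter.2 ⟨hu _ _, ?_⟩)
  rw [id]
  rw [hWg x, row_eq, ← Finset.sum_add_sum_compl (J S R a)] at hx
  have h1 : ∑ e : F S R a, sg (x e) * v e = ∑ j ∈ J S R a, sg (glue (F S R a) s x s(a, j)) * W s j := by
    have h2 : ∑ e : F S R a, sg (x e) * v e = ∑ e : F S R a, sg (glue (F S R a) s x e) * v e := by
      refine sum_congr rfl fun e _ => ?_
      congr 2
      unfold glue
      rw [dif_pos e.2]
    rw [h2, Finset.sum_coe_sort (F S R a) (fun e => sg (glue (F S R a) s x e) * v e), sum_F]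
    refine sum_congr rfl fun j hj => ?_
    rw [hv j hj]
  have h3 : ∑ j ∈ (J S R a)ᶜ, sg (glue (F S R a) s x s(a, j)) * W s j =
      ∑ j ∈ (J S R a)ᶜ, sg (s s(a, j)) * W s j := by
    refine sum_congr rfl fun j hj => ?_
    congr 2
    unfold glue
    rw [dif_neg fun h => (mem_compl.1 hj) (mem_F.1 h)]
  rw [h1]
  rw [h3] at hx
  linarith

open Classical in
theorem one_step {n : ℕ} (S R : Finset (Fin n)) (W : (Sym2 (Fin n) → Bool) → Fin n → ℝ)
    (hW : ∀ s t : Sym2 (Fin n) → Bool, (∀ i ∈ R, ∀ j ∈ S, s s(i, j) = t s(i, j)) → W s = W t)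
    (Q : Finset (Fin n)) (a : Fin n) (ha : a ∉ R) (hQ : ∀ m ∈ Q, m < a) :
    (#(X S W (insert a Q)) : ℝ) ≤ rho (fresh S R a) * #(X S W Q) := by
  obtain ⟨P, hP⟩ : ∃ P : (Sym2 (Fin n) → Bool) → Prop, ∀ t, P t ↔
      ((∀ j, W t j ≠ 0 ↔ j ∈ S) ∧ (mat t).mulVec (W t) a = 0) := ⟨_, fun t => Iff.rfl⟩
  have hst := step (F S R a) (X S W Q) (by
    intro s hs t ht
    unfold X at hs ⊢
    rw [mem_filter] at hs ⊢
    obtain ⟨-, h1, h2⟩ := hs
    have hWt : W t = W s := inv hW ha ht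
    refine ⟨mem_univ _, ?_, ?_⟩
    · rw [hWt]; exact h1
    · intro m hm
      rw [hWt, ← h2 m hm, row_eq, row_eq]
      refine sum_congr rfl fun j _ => ?_
      by_cases hj : j ∈ S
      · rw [ht _ (notMem_F_of_lt (hQ m hm) hj)]
      · have : W s j = 0 := by
          by_contra h
          exact hj ((h1 j).1 h)
        rw [this, mul_zero, mul_zero]) P
    ((#(F S R a)).choose (#(F S R a) / 2))
    (fun s => fibre (D := fun a b => Classical.propDecidable (a = b)) S R W hW a ha P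
      (fun t ht => (hP t).1 ht) s)
  have hsub : X S W (insert a Q) ⊆ {s ∈ X S W Q | P s} := by
    intro s hs
    unfold X at hs ⊢
    rw [mem_filter] at hs
    rw [mem_filter, mem_filter]
    exact ⟨⟨mem_univ _, hs.2.1, fun m hm => hs.2.2 m (mem_insert_of_mem hm)⟩, (hP s).2 ⟨hs.2.1,
      hs.2.2 a (mem_insert_self _ _)⟩⟩
  have h1 : (#(X S W (insert a Q)) : ℝ) * 2 ^ #(F S R a) ≤
      ((#(F S R a)).choose (#(F S R a) / 2) : ℝ) * #(X S W Q) := by
    have h2 : #(X S W (insert a Q)) * 2 ^ #(F S R a) ≤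
        (#(F S R a)).choose (#(F S R a) / 2) * #(X S W Q) :=
      (Nat.mul_le_mul_right (2 ^ #(F S R a)) (card_le_card hsub)).trans hst
    exact_mod_cast h2
  rw [card_F] at h1
  unfold rho
  rw [div_mul_eq_mul_div, le_div_iff₀ (by positivity)]
  exact h1

end CW

open Classical in
/-- Row CHAINW. -/
theorem chainW {n : ℕ} (S R : Finset (Fin n)) (W : (Sym2 (Fin n) → Bool) → Fin n → ℝ)
    (hW : ∀ s t : Sym2 (Fin n) → Bool, (∀ i ∈ R, ∀ j ∈ S, s s(i, j) = t s(i, j)) → W s = W t) :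
    (#{s : Sym2 (Fin n) → Bool | (∀ j, W s j ≠ 0 ↔ j ∈ S) ∧ (mat s).mulVec (W s) = 0} : ℝ) ≤
      2 ^ Fintype.card (Sym2 (Fin n)) * ∏ m ∈ Rᶜ, rho (fresh S R m) := by
  have key : ∀ Q : Finset (Fin n), Disjoint Q R →
      (#(CW.X S W Q) : ℝ) ≤ 2 ^ Fintype.card (Sym2 (Fin n)) * ∏ m ∈ Q, rho (fresh S R m) := by
    intro Q
    induction Q using Finset.induction_on_max with
    | empty =>
      intro _
      rw [prod_empty, mul_one]
      have h1 : #(CW.X S W ∅) ≤ Fintype.card (Sym2 (Fin n) → Bool) := card_le_univ _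
      have h2 : Fintype.card (Sym2 (Fin n) → Bool) = 2 ^ Fintype.card (Sym2 (Fin n)) := by
        simp
      rw [h2] at h1
      exact_mod_cast h1
    | insert a Q hlt ih =>
      intro hd
      rw [disjoint_insert_left] at hd
      have hnot : a ∉ Q := fun h => lt_irrefl a (hlt a h)
      rw [prod_insert hnot]
      refine (CW.one_step S R W hW Q a hd.1 hlt).trans ?_
      have h3 : 0 ≤ rho (fresh S R a) := by unfold rho; positivity
      calc rho (fresh S R a) * #(CW.X S W Q)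
          ≤ rho (fresh S R a) * (2 ^ Fintype.card (Sym2 (Fin n)) * ∏ m ∈ Q, rho (fresh S R m)) :=
            mul_le_mul_of_nonneg_left (ih hd.2) h3
        _ = _ := by ring
  refine le_trans ?_ (key Rᶜ disjoint_compl_left)
  have hsub : (univ.filter fun s : Sym2 (Fin n) → Bool =>
      (∀ j, W s j ≠ 0 ↔ j ∈ S) ∧ (mat s).mulVec (W s) = 0) ⊆ CW.X S W Rᶜ := by
    intro s hs
    unfold CW.X
    rw [mem_filter] at hs ⊢
    refine ⟨mem_univ _, hs.2.1, fun m _ => ?_⟩
    rw [hs.2.2]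
    rfl
  exact_mod_cast card_le_card hsub

end Vale.Agent.P160.Few
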