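import Vale.Agent.P160.Defs

/-! Extension of P160: kernel vectors with few values on a positive proportion of coordinates. -/

namespace Vale.Agent.P160.Few

open Finset

open Classical in
/-- The kernel contains a nonzero vector `v` such that some set `T` of at most `m` reals contains at
least `g` of the coordinates of `v`. -/
def FewVal (n m g : ℕ) : Set (Sym2 (Fin n) → Bool) :=
  {s | ∃ v : Fin n → ℝ, v ≠ 0 ∧ (mat s).mulVec v = 0 ∧
    ∃ T : Finset ℝ, #T ≤ m ∧ g ≤ #{j | v j ∈ T}}

/-- Vectors supported in `S`. -/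
def supp {n : ℕ} (S : Finset (Fin n)) : Submodule ℝ (Fin n → ℝ) where
  carrier := {v | ∀ j, j ∉ S → v j = 0}
  add_mem' := fun {a b} ha hb j hj => by
    have h1 := ha j hj
    have h2 := hb j hj
    simp only [Pi.add_apply, h1, h2, add_zero]
  zero_mem' := fun j _ => rfl
  smul_mem' := fun c v hv j hj => by
    have h1 := hv j hj
    simp only [Pi.smul_apply, h1, smul_zero]

/-- Vectors that are constant on the fibres of `f` inside `G`. -/
def patt {n m : ℕ} (G : Finset (Fin n)) (f : Fin n → Fin m) : Submodule ℝ (Fin n → ℝ) where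
  carrier := {w | ∀ i ∈ G, ∀ j ∈ G, f i = f j → w i = w j}
  add_mem' := fun {a b} ha hb i hi j hj h => by
    simp only [Pi.add_apply, ha i hi j hj h, hb i hi j hj h]
  zero_mem' := fun _ _ _ _ _ => rfl
  smul_mem' := fun c v hv i hi j hj h => by
    simp only [Pi.smul_apply, hv i hi j hj h]

open Classical in
/-- A nonzero vector of `U` supported in `S` and orthogonal to the rows in `R` (`0` if there is
none). -/
noncomputable def wit {n : ℕ} (U : Submodule ℝ (Fin n → ℝ)) (S R : Finset (Fin n))
    (s : Sym2 (Fin n) → Bool) : Fin n → ℝ :=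
  if h : ∃ w : Fin n → ℝ, w ≠ 0 ∧ w ∈ U ⊓ supp S ∧ ∀ i ∈ R, (mat s).mulVec w i = 0
  then h.choose else 0

end Vale.Agent.P160.Few
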