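import Vale.Agent.P160.Few.Defs

/-!
P160, few values: the dimension of the space of patterns.
-/

open Finset

namespace Vale.Agent.P160.Few

namespace Dim

open Classical in
/-- the value of `w` at a representative of the class `t` inside `G` -/
noncomputable def val {n m : ℕ} (G : Finset (Fin n)) (f : Fin n → Fin m) (w : Fin n → ℝ)
    (t : Fin m) : ℝ :=
  if h : ∃ i ∈ G, f i = t then w h.choose else 0

theorem val_eq {n m : ℕ} {G : Finset (Fin n)} {f : Fin n → Fin m} {w : Fin n → ℝ}
    (hw : w ∈ patt G f) {i : Fin n} (hi : i ∈ G) : val G f w (f i) = w i := by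
  have h : ∃ j ∈ G, f j = f i := ⟨i, hi, rfl⟩
  unfold val
  rw [dif_pos h]
  exact hw _ h.choose_spec.1 _ hi h.choose_spec.2

/-- the values outside `G` and the values of the classes -/
noncomputable def Phi {n m : ℕ} (G : Finset (Fin n)) (f : Fin n → Fin m) :
    (Fin n → ℝ) →ₗ[ℝ] ({i // i ∉ G} → ℝ) × (Fin m → ℝ) where
  toFun w := (fun i => w i, val G f w)
  map_add' w w' := by
    refine Prod.ext rfl ?_
    funext t
    simp only [val, Prod.snd_add, Pi.add_apply]
    split_ifs
    · rfl
    · simp
  map_smul' c w := by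
    refine Prod.ext rfl ?_
    funext t
    simp only [val, Prod.smul_snd, Pi.smul_apply, RingHom.id_apply]
    split_ifs
    · rfl
    · simp

end Dim

/-- [DIM] -/
theorem finrank_patt_le {n m : ℕ} (G S : Finset (Fin n)) (f : Fin n → Fin m) :
    Module.finrank ℝ ↥(patt G f ⊓ supp S) ≤ (n - #G) + m := by
  have hinj : Function.Injective ((Dim.Phi G f).comp (patt G f ⊓ supp S).subtype) := by
    rw [← LinearMap.ker_eq_bot, LinearMap.ker_eq_bot']
    rintro ⟨w, hw⟩ h
    have hw1 : w ∈ patt G f := hw.1
    have h1 : (fun i : {i // i ∉ G} => w i) = 0 := congrArg Prod.fst h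
    have h2 : Dim.val G f w = 0 := congrArg Prod.snd h
    apply Subtype.ext
    funext i
    by_cases hi : i ∈ G
    · have h3 := congrFun h2 (f i)
      rw [Dim.val_eq hw1 hi] at h3
      exact h3
    · exact congrFun h1 ⟨i, hi⟩
  refine (LinearMap.finrank_le_finrank_of_injective hinj).trans (le_of_eq ?_)
  rw [Module.finrank_prod, Module.finrank_fintype_fun_eq_card, Module.finrank_fin_fun]
  congr 1
  rw [Fintype.card_subtype_compl, Fintype.card_fin, Fintype.card_coe]

end Vale.Agent.P160.Few
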