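import Vale.Agent.P160.AsymLog

/-!
P160, few values: the bound for dense supports.
-/

open Finset

namespace Vale.Agent.P160.Few

/-- [NUM1] -/
theorem bound_dense {n k r a : ℕ} (hn : 1 ≤ n) (hk : n ≤ 2 * k) (har : a + r ≤ n) :
    (rho k ^ (n - (a + r)) * ∏ i ∈ range a, rho (i + 1)) ^ 2 ≤
      (6 : ℝ) ^ n * ((1 : ℝ) / n) ^ (n - r) := by
  set b := n - (a + r) with hb
  set P : ℝ := ∏ i ∈ range a, rho (i + 1) with hP
  have hn0 : (0 : ℝ) < n := Nat.cast_pos.2 hn
  have hk0 : (0 : ℝ) < k := Nat.cast_pos.2 (by omega)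
  have h1 : rho k ^ 2 ≤ 2 * (1 / n) := by
    have h := rho_sq k
    have h2 : rho k ^ 2 ≤ 1 / k := by
      rw [le_div_iff₀ hk0]
      linarith
    have h3 : (1 : ℝ) / k ≤ 2 * (1 / n) := by
      rw [mul_one_div, div_le_div_iff₀ hk0 hn0]
      have : (n : ℝ) ≤ 2 * k := by exact_mod_cast hk
      linarith
    exact h2.trans h3
  have h2 : P ^ 2 ≤ Real.exp n * (1 / n) ^ a := by
    have h3 := AsymLog.prod_sq a
    have h4 := Real.pow_div_factorial_le_exp (n : ℝ) hn0.le a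
    have hf : (0 : ℝ) < a.factorial := Nat.cast_pos.2 a.factorial_pos
    rw [div_le_iff₀ hf] at h4
    have h5 : P ^ 2 * (n : ℝ) ^ a ≤ Real.exp n := by
      calc P ^ 2 * (n : ℝ) ^ a ≤ P ^ 2 * (Real.exp n * a.factorial) :=
            mul_le_mul_of_nonneg_left h4 (by positivity)
        _ = Real.exp n * (a.factorial * P ^ 2) := by ring
        _ ≤ Real.exp n * 1 := mul_le_mul_of_nonneg_left h3 (Real.exp_pos _).le
        _ = Real.exp n := mul_one _
    rw [one_div, inv_pow, ← div_eq_mul_inv, le_div_iff₀ (by positivity)]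
    exact h5
  have h6 : (2 : ℝ) ^ b * Real.exp n ≤ 6 ^ n := by
    have h7 : (2 : ℝ) ^ b ≤ 2 ^ n := pow_le_pow_right₀ (by norm_num) (by omega)
    have h8 : Real.exp n ≤ 3 ^ n := by
      have h9 : Real.exp (n : ℝ) = Real.exp 1 ^ n := by
        rw [← Real.exp_nat_mul, mul_one]
      rw [h9]
      exact pow_le_pow_left₀ (Real.exp_pos _).le
        (Real.exp_one_lt_d9.le.trans (by norm_num)) n
    calc (2 : ℝ) ^ b * Real.exp n ≤ 2 ^ n * 3 ^ n :=
          mul_le_mul h7 h8 (Real.exp_pos _).le (by positivity)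
      _ = 6 ^ n := by rw [← mul_pow]; norm_num
  have hba : n - r = b + a := by omega
  rw [hba, pow_add]
  calc (rho k ^ b * P) ^ 2 = (rho k ^ 2) ^ b * P ^ 2 := by rw [mul_pow, ← pow_mul, ← pow_mul,
        mul_comm b 2]
    _ ≤ (2 * (1 / n)) ^ b * (Real.exp n * (1 / n) ^ a) :=
        mul_le_mul (pow_le_pow_left₀ (by positivity) h1 b) h2 (by positivity) (by positivity)
    _ = (2 ^ b * Real.exp n) * ((1 / n) ^ b * (1 / n) ^ a) := by rw [mul_pow]; ring
    _ ≤ 6 ^ n * ((1 / n) ^ b * (1 / n) ^ a) := mul_le_mul_of_nonneg_right h6 (by positivity)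

end Vale.Agent.P160.Few
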