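import Mathlib

/-! [SEL]: functionals with a common nonzero kernel vector: few of them have the same common
kernel. -/

open Finset

namespace Vale.Agent.P160.Few

open Classical in
/-- [SEL] Few/Sel.lean -/
theorem sel {α E : Type*} [Fintype α] [AddCommGroup E] [Module ℝ E] [FiniteDimensional ℝ E]
    (φ : α → (E →ₗ[ℝ] ℝ)) (h : ∃ e : E, e ≠ 0 ∧ ∀ i, φ i e = 0) :
    ∃ R : Finset α, #R + 1 ≤ Module.finrank ℝ E ∧
      ∀ e, (∀ i ∈ R, φ i e = 0) → ∀ i, φ i e = 0 := by
  obtain ⟨v, hv0, hv⟩ := h
  obtain ⟨κ, a, ha, hsp, hli⟩ := exists_linearIndependent' ℝ φ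
  have : Finite κ := Finite.of_injective a ha
  have := Fintype.ofFinite κ
  have hle : Fintype.card κ ≤ Module.finrank ℝ E := by
    have h := LinearIndependent.fintype_card_le_finrank (R := ℝ) (M := Module.Dual ℝ E) hli
    rwa [Subspace.dual_finrank_eq] at h
  have hkill : ∀ f ∈ Submodule.span ℝ (Set.range (φ ∘ a)),
      ∀ w : E, (∀ k, φ (a k) w = 0) → f w = 0 := by
    intro f hf w hw
    induction hf using Submodule.span_induction with
    | mem x hx =>
      obtain ⟨k, rfl⟩ := hx
      exact hw k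
    | zero => rfl
    | add x y _ _ hx hy => rw [LinearMap.add_apply, hx, hy, add_zero]
    | smul c x _ hx => rw [LinearMap.smul_apply, hx, smul_zero]
  refine ⟨Finset.univ.image a, ?_, ?_⟩
  · rw [Finset.card_image_of_injective _ ha, Finset.card_univ, Nat.succ_le_iff]
    refine lt_of_le_of_ne hle fun heq => ?_
    have htop : Submodule.span ℝ (Set.range (φ ∘ a)) = ⊤ := by
      apply LinearIndependent.span_eq_top_of_card_eq_finrank' (K := ℝ) (V := Module.Dual ℝ E) hli
      rw [heq, Subspace.dual_finrank_eq]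
    apply hv0
    rw [← Module.forall_dual_apply_eq_zero_iff ℝ]
    intro f
    exact hkill f (by rw [htop]; trivial) _ fun k => hv (a k)
  · intro w hw i
    have h1 : φ i ∈ Submodule.span ℝ (Set.range (φ ∘ a)) := by
      rw [hsp]
      exact Submodule.subset_span ⟨i, rfl⟩
    exact hkill _ h1 w fun k => hw (a k) (Finset.mem_image_of_mem a (Finset.mem_univ k))

end Vale.Agent.P160.Few
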