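import Vale.Agent.P160.Few.Defs
import Vale.Agent.P160.Few.Sel

/-! [WIT]: the witness. -/

open Finset

namespace Vale.Agent.P160.Few

namespace Wit

open Classical in
/-- a chosen vector with a property -/
noncomputable def ch {n : ℕ} (P : (Fin n → ℝ) → Prop) : Fin n → ℝ :=
  if h : ∃ w : Fin n → ℝ, P w then h.choose else 0

theorem wit_eq {n : ℕ} (U : Submodule ℝ (Fin n → ℝ)) (S R : Finset (Fin n))
    (s : Sym2 (Fin n) → Bool) :
    wit U S R s =
      ch (fun w => w ≠ 0 ∧ w ∈ U ⊓ supp S ∧ ∀ i ∈ R, (mat s).mulVec w i = 0) := rfl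

theorem ch_spec {n : ℕ} {P : (Fin n → ℝ) → Prop} (h : ∃ w, P w) : P (ch P) := by
  rw [ch, dif_pos h]
  exact h.choose_spec

end Wit

/-- [WIT] Few/Wit.lean -/
theorem wit_congr {n : ℕ} (U : Submodule ℝ (Fin n → ℝ)) (S R : Finset (Fin n))
    (s t : Sym2 (Fin n) → Bool) (h : ∀ i ∈ R, ∀ j ∈ S, s s(i, j) = t s(i, j)) :
    wit U S R s = wit U S R t := by
  rw [Wit.wit_eq, Wit.wit_eq]
  congr 1
  funext w
  apply propext
  refine and_congr_right fun _ => and_congr_right fun hw => ?_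
  refine forall_congr' fun i => forall_congr' fun hi => ?_
  have h1 : (mat s).mulVec w i = (mat t).mulVec w i := by
    simp only [Matrix.mulVec, dotProduct, mat, Matrix.of_apply]
    refine Finset.sum_congr rfl fun j _ => ?_
    by_cases hj : j ∈ S
    · rw [h i hi j hj]
    · have h2 : w j = 0 := hw.2 j hj
      rw [h2, mul_zero, mul_zero]
  rw [h1]

/-- [WIT] -/
theorem exists_wit {n : ℕ} (U : Submodule ℝ (Fin n → ℝ)) (s : Sym2 (Fin n) → Bool)
    (v : Fin n → ℝ) (hU : v ∈ U) (h0 : v ≠ 0) (hN : (mat s).mulVec v = 0) :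
    ∃ S R : Finset (Fin n), S.Nonempty ∧ #R + 1 ≤ Module.finrank ℝ ↥(U ⊓ supp S) ∧
      (∀ j, wit U S R s j ≠ 0 ↔ j ∈ S) ∧ (mat s).mulVec (wit U S R s) = 0 := by
  classical
  have hex : ∃ m, ∃ v ∈ U, v ≠ 0 ∧ (mat s).mulVec v = 0 ∧ nnz v = m :=
    ⟨_, v, hU, h0, hN, rfl⟩
  obtain ⟨v, hvW, hv0, hAv, hm⟩ := Nat.find_spec hex
  have hminm : ∀ w ∈ U, w ≠ 0 → (mat s).mulVec w = 0 → nnz v ≤ nnz w := by
    intro w hwW hw hAw
    rw [hm]
    exact Nat.find_min' hex ⟨w, hwW, hw, hAw, rfl⟩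
  set S : Finset (Fin n) := {j | v j ≠ 0} with hS
  have hvS : ∀ j, v j ≠ 0 ↔ j ∈ S := by
    intro j
    rw [hS, Finset.mem_filter]
    simp
  have hcard : #S = nnz v := by
    rw [hS]
    rfl
  have hv0' : ∀ j, j ∉ S → v j = 0 := fun j hj => by
    by_contra h
    exact hj ((hvS j).1 h)
  have hSne : S.Nonempty := by
    by_contra h
    rw [Finset.not_nonempty_iff_eq_empty] at h
    apply hv0
    ext j
    exact hv0' j (by rw [h]; exact Finset.notMem_empty j)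
  have hmin : ∀ w ∈ U, (∀ j, j ∉ S → w j = 0) → (mat s).mulVec w = 0 →
      ∃ c : ℝ, w = c • v := by
    intro w hwW hw hAw
    obtain ⟨j, hj⟩ := hSne
    have hvj : v j ≠ 0 := (hvS j).2 hj
    refine ⟨w j / v j, ?_⟩
    by_contra hne
    have h3 : w - (w j / v j) • v ≠ 0 := sub_ne_zero.2 hne
    have h4 : (mat s).mulVec (w - (w j / v j) • v) = 0 := by
      rw [Matrix.mulVec_sub, Matrix.mulVec_smul, hAw, hAv, smul_zero, sub_zero]
    have h5 := hminm _ (U.sub_mem hwW (U.smul_mem _ hvW)) h3 h4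
    have h6 : nnz (w - (w j / v j) • v) < #S := by
      unfold nnz
      apply Finset.card_lt_card
      rw [Finset.ssubset_iff_of_subset]
      · refine ⟨j, hj, ?_⟩
        rw [Finset.mem_filter]
        push Not
        intro _
        simp only [Pi.sub_apply, Pi.smul_apply, smul_eq_mul]
        field_simp
        ring
      · intro i hi
        rw [Finset.mem_filter] at hi
        by_contra hiS
        apply hi.2
        simp only [Pi.sub_apply, Pi.smul_apply, smul_eq_mul]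
        rw [hw i hiS, hv0' i hiS]
        ring
    omega
  have hvE : v ∈ U ⊓ supp S := ⟨hvW, hv0'⟩
  obtain ⟨R, hR, hker⟩ := sel (α := Fin n) (E := ↥(U ⊓ supp S))
    (fun i => (LinearMap.proj i ∘ₗ (mat s).mulVecLin) ∘ₗ (U ⊓ supp S).subtype)
    ⟨⟨v, hvE⟩, fun h => hv0 (congrArg Subtype.val h), fun i => by
      change (mat s).mulVec v i = 0
      rw [hAv]
      rfl⟩
  have hspec := Wit.ch_spec
    (P := fun w => w ≠ 0 ∧ w ∈ U ⊓ supp S ∧ ∀ i ∈ R, (mat s).mulVec w i = 0)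
    ⟨v, hv0, hvE, fun i _ => by rw [hAv]; rfl⟩
  rw [← Wit.wit_eq] at hspec
  obtain ⟨hw0, hwE, hwR⟩ := hspec
  have hAw : (mat s).mulVec (wit U S R s) = 0 := by
    ext i
    exact hker ⟨wit U S R s, hwE⟩ (fun i hi => hwR i hi) i
  refine ⟨S, R, hSne, hR, ?_, hAw⟩
  obtain ⟨c, hc⟩ := hmin _ hwE.1 hwE.2 hAw
  have hc0 : c ≠ 0 := by
    rintro rfl
    rw [zero_smul] at hc
    exact hw0 hc
  intro j
  rw [hc, Pi.smul_apply, smul_eq_mul, mul_ne_zero_iff, hvS j]
  exact ⟨fun h => h.2, fun h => ⟨hc0, h⟩⟩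

end Vale.Agent.P160.Few
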