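import Vale.Agent.P160.Few.ChainW
import Vale.Agent.P160.Few.Wit
import Vale.Agent.P160.Few.Dim
import Vale.Agent.P160.Few.Num1
import Vale.Agent.P160.Prod

/-!
# P160, extension: the union bound
-/

open Finset

namespace Vale.Agent.P160.Few

namespace Dense

theorem biUnion_le {ι β : Type*} [DecidableEq β] (s : Finset ι) (f : ι → Finset β) (a c : ℝ)
    (hs : (#s : ℝ) ≤ a) (hc : 0 ≤ c) (h : ∀ i ∈ s, (#(f i) : ℝ) ≤ c) :
    (#(s.biUnion f) : ℝ) ≤ a * c := by
  calc (#(s.biUnion f) : ℝ) ≤ ((∑ i ∈ s, #(f i) : ℕ) : ℝ) := by exact_mod_cast card_biUnion_le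
    _ = ∑ i ∈ s, (#(f i) : ℝ) := by push_cast; rfl
    _ ≤ ∑ _i ∈ s, c := sum_le_sum h
    _ = #s * c := by rw [sum_const, nsmul_eq_mul]
    _ ≤ a * c := mul_le_mul_of_nonneg_right hs hc

theorem card_sets (n : ℕ) (P : Finset (Fin n) → Prop) [DecidablePred P] :
    (#{S : Finset (Fin n) | P S} : ℝ) ≤ 2 ^ n := by
  have h : #{S : Finset (Fin n) | P S} ≤ 2 ^ n := by
    calc #{S : Finset (Fin n) | P S} ≤ #(univ : Finset (Finset (Fin n))) := card_filter_le _ _
      _ = 2 ^ n := by rw [card_univ, Fintype.card_finset, Fintype.card_fin]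
  exact_mod_cast h

/-- Functions equal to `z` outside `G`. -/
def fns {n m : ℕ} (z : Fin m) (G : Finset (Fin n)) : Finset (Fin n → Fin m) :=
  Fintype.piFinset fun i => if i ∈ G then univ else {z}

theorem card_fns {n m : ℕ} (z : Fin m) (G : Finset (Fin n)) : #(fns z G) = m ^ #G := by
  unfold fns
  rw [Fintype.card_piFinset]
  have h : ∀ i : Fin n, #(if i ∈ G then (univ : Finset (Fin m)) else {z}) =
      if i ∈ G then m else 1 := by
    intro i
    split_ifs <;> simp
  rw [prod_congr rfl (fun i _ => h i), prod_ite_mem, univ_inter, prod_const]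

open Classical in
/-- The event for `G`, `f`, `S`, `R`. -/
noncomputable def ev {n m : ℕ} (G : Finset (Fin n)) (f : Fin n → Fin m) (S R : Finset (Fin n)) :
    Finset (Sym2 (Fin n) → Bool) :=
  {s | (∀ j, wit (patt G f) S R s j ≠ 0 ↔ j ∈ S) ∧ (mat s).mulVec (wit (patt G f) S R s) = 0}

open Classical in
/-- The union of the events. -/
noncomputable def big (n m g : ℕ) (z : Fin m) : Finset (Sym2 (Fin n) → Bool) :=
  (univ.filter fun G : Finset (Fin n) => #G = g).biUnion fun G =>
    (fns z G).biUnion fun f =>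
      (univ.filter fun S : Finset (Fin n) => n ≤ 2 * #S).biUnion fun S =>
        (univ.filter fun R : Finset (Fin n) => #R + 1 ≤ n - g + m).biUnion fun R => ev G f S R

theorem mem_big {n m g : ℕ} (z : Fin m) (s : Sym2 (Fin n) → Bool)
    (hs : s ∈ FewVal n m g \ Sparse n (n / 2)) : s ∈ big n m g z := by
  classical
  obtain ⟨⟨v, hv0, hv, T, hT, hg⟩, hns⟩ := hs
  obtain ⟨G, hG, hGg⟩ := exists_subset_card_eq hg
  have hemb : ∃ e : T → Fin m, Function.Injective e := by
    have h1 : Fintype.card T ≤ Fintype.card (Fin m) := by simpa using hT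
    obtain ⟨e⟩ := Function.Embedding.nonempty_of_card_le h1
    exact ⟨e, e.injective⟩
  obtain ⟨e, he⟩ := hemb
  have hGT : ∀ i ∈ G, v i ∈ T := by
    intro i hi
    have := hG hi
    simpa using this
  let f : Fin n → Fin m := fun i => if h : i ∈ G then e ⟨v i, hGT i h⟩ else z
  have hfG : ∀ i ∈ G, ∀ j ∈ G, f i = f j → v i = v j := by
    intro i hi j hj hij
    simp only [f, dif_pos hi, dif_pos hj] at hij
    have := he hij
    simpa using this
  obtain ⟨S, R, hSn, hR, hw, hAw⟩ := exists_wit (patt G f) s v hfG hv0 hv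
  have hdim := finrank_patt_le G S f
  have hS : n ≤ 2 * #S := by
    by_contra hcon
    apply hns
    refine ⟨wit (patt G f) S R s, ?_, hAw, ?_⟩
    · intro h0
      obtain ⟨j, hj⟩ := hSn
      exact (hw j).2 hj (congrFun h0 j)
    · unfold nnz
      have : #{i | wit (patt G f) S R s i ≠ 0} = #S := by
        congr 1
        ext i
        simp only [mem_filter, mem_univ, true_and]
        exact hw i
      omega
  rw [big, mem_biUnion]
  refine ⟨G, by simpa using hGg, ?_⟩
  rw [mem_biUnion]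
  refine ⟨f, ?_, ?_⟩
  · rw [fns, Fintype.mem_piFinset]
    intro i
    by_cases hi : i ∈ G
    · rw [if_pos hi]; exact mem_univ _
    · rw [if_neg hi, mem_singleton]
      simp only [f, dif_neg hi]
  rw [mem_biUnion]
  refine ⟨S, by simpa using hS, ?_⟩
  rw [mem_biUnion]
  refine ⟨R, ?_, ?_⟩
  · simp only [mem_filter, mem_univ, true_and]
    omega
  · rw [ev, mem_filter]
    exact ⟨mem_univ _, hw, hAw⟩

theorem ev_le {n m g : ℕ} (hn : 1 ≤ n) (G : Finset (Fin n)) (f : Fin n → Fin m)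
    (S R : Finset (Fin n)) (hS : n ≤ 2 * #S) (hR : #R + 1 ≤ n - g + m) (hgn : g ≤ n) :
    (#(ev G f S R) : ℝ) ≤ 2 ^ Fintype.card (Sym2 (Fin n)) *
      Real.sqrt ((6 : ℝ) ^ n * ((1 : ℝ) / n) ^ (g - m)) := by
  classical
  have h1 := chainW S R (wit (patt G f) S R) (fun s t h => wit_congr (patt G f) S R s t h)
  refine le_trans (le_of_eq ?_) (h1.trans (mul_le_mul_of_nonneg_left ?_ (by positivity)))
  · rfl
  · rw [prod_fresh]
    apply Real.le_sqrt_of_sq_le
    have hU : #(S ∪ R) = #(S \ R) + #R := by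
      rw [← card_sdiff_add_card]
    have hle : #(S ∪ R) ≤ n := by
      simpa using card_le_univ (S ∪ R)
    have hc : #(S ∪ R)ᶜ = n - (#(S \ R) + #R) := by
      rw [card_compl, Fintype.card_fin, hU]
    rw [hc]
    refine (bound_dense (r := #R) hn hS (by omega)).trans ?_
    apply mul_le_mul_of_nonneg_left _ (by positivity)
    have hn1 : (1 : ℝ) ≤ n := by exact_mod_cast hn
    apply pow_le_pow_of_le_one (by positivity)
    · rw [div_le_one (by linarith)]
      exact hn1
    · omega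

end Dense

/-- [DENSE] Few/Dense.lean -/
theorem dense {n m g : ℕ} (hn : 1 ≤ n) (hm : 1 ≤ m) (hg : 1 ≤ g) (hgn : g ≤ n) :
    pr n (FewVal n m g \ Sparse n (n / 2)) ≤
      (8 : ℝ) ^ n * (m : ℝ) ^ g * Real.sqrt ((6 : ℝ) ^ n * ((1 : ℝ) / n) ^ (g - m)) := by
  classical
  let z : Fin m := ⟨0, hm⟩
  obtain ⟨q, hq⟩ : ∃ q : ℝ, q = Real.sqrt ((6 : ℝ) ^ n * ((1 : ℝ) / n) ^ (g - m)) := ⟨_, rfl⟩
  have hq0 : 0 ≤ q := by rw [hq]; exact Real.sqrt_nonneg _
  obtain ⟨N, hN⟩ : ∃ N : ℝ, N = 2 ^ Fintype.card (Sym2 (Fin n)) := ⟨_, rfl⟩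
  have hN0 : 0 < N := by rw [hN]; positivity
  have hbig : (#(Dense.big n m g z) : ℝ) ≤ 2 ^ n * ((m : ℝ) ^ g * (2 ^ n * (2 ^ n * (N * q)))) := by
    unfold Dense.big
    refine Dense.biUnion_le _ _ _ _ (Dense.card_sets n _) (by positivity) ?_
    intro G hG
    simp only [mem_filter, mem_univ, true_and] at hG
    refine Dense.biUnion_le _ _ _ _ ?_ (by positivity) ?_
    · rw [Dense.card_fns, hG]
      push_cast
      exact le_rfl
    intro f _
    refine Dense.biUnion_le _ _ _ _ (Dense.card_sets n _) (by positivity) ?_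
    intro S hS
    simp only [mem_filter, mem_univ, true_and] at hS
    refine Dense.biUnion_le _ _ _ _ (Dense.card_sets n _) (by positivity) ?_
    intro R hR
    simp only [mem_filter, mem_univ, true_and] at hR
    rw [hN, hq]
    exact Dense.ev_le hn G f S R hS hR hgn
  have hsub : (FewVal n m g \ Sparse n (n / 2)) ⊆ (Dense.big n m g z : Set _) :=
    fun s hs => Dense.mem_big z s hs
  have hcard : (Nat.card ↥(FewVal n m g \ Sparse n (n / 2)) : ℝ) ≤ #(Dense.big n m g z) := by
    have h1 := Nat.card_mono (Finset.finite_toSet (Dense.big n m g z)) hsub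
    have h2 : Nat.card ↥(Dense.big n m g z : Set (Sym2 (Fin n) → Bool)) = #(Dense.big n m g z) := by
      simp
    rw [h2] at h1
    exact_mod_cast h1
  unfold pr
  rw [← hN, ← hq, div_le_iff₀ hN0]
  refine hcard.trans (hbig.trans (le_of_eq ?_))
  have h8 : (8 : ℝ) ^ n = 2 ^ n * 2 ^ n * 2 ^ n := by
    rw [← mul_pow, ← mul_pow]
    norm_num
  rw [h8]
  ring

end Vale.Agent.P160.Few
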