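import Mathlib

/-! Extension of P160, row NUM2: the final numerical estimate. -/

open Finset

namespace Vale.Agent.P160.Few

theorem num_dense (δ ε : ℝ) (hδ : 0 < δ) (hε : 0 < ε) (hε' : ε < 1 / 2) :
    ∃ n₀ : ℕ, ∀ n : ℕ, n₀ ≤ n → ∀ m g : ℕ, 1 ≤ m → (m : ℝ) ≤ (n : ℝ) ^ (1 / 2 - ε) →
      δ * n ≤ g → g ≤ n →
      ((8 : ℝ) ^ n * (m : ℝ) ^ g) ^ 2 * ((6 : ℝ) ^ n * ((1 : ℝ) / n) ^ (g - m)) ≤
        ((1 / 2) ^ n) ^ 2 := by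
  have hed : 0 < ε * δ := mul_pos hε hδ
  have h1 : ∀ᶠ n : ℕ in Filter.atTop, (1536 : ℝ) ≤ (n : ℝ) ^ (ε * δ) :=
    ((tendsto_rpow_atTop hed).comp tendsto_natCast_atTop_atTop).eventually_ge_atTop 1536
  have h2 : ∀ᶠ n : ℕ in Filter.atTop, 1 / (ε * δ) ≤ (n : ℝ) ^ ((1 : ℝ) / 2) :=
    ((tendsto_rpow_atTop (by norm_num : (0 : ℝ) < 1 / 2)).comp
      tendsto_natCast_atTop_atTop).eventually_ge_atTop _
  obtain ⟨n₀, hn₀⟩ := Filter.eventually_atTop.1 (h1.and (h2.and (Filter.eventually_ge_atTop 1)))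
  refine ⟨n₀, fun n hn m g hm hmn hg hgn => ?_⟩
  obtain ⟨hA, hB, hC⟩ := hn₀ n hn
  have hn1 : (1 : ℝ) ≤ n := by exact_mod_cast hC
  have hnp : (0 : ℝ) < n := by linarith
  have hmle : (m : ℝ) ≤ ε * δ * n := by
    have e1 : (n : ℝ) ^ (1 / 2 - ε) ≤ (n : ℝ) ^ ((1 : ℝ) / 2) :=
      Real.rpow_le_rpow_of_exponent_le hn1 (by linarith)
    have e2 : (n : ℝ) ^ ((1 : ℝ) / 2) * (n : ℝ) ^ ((1 : ℝ) / 2) = n := by
      rw [← Real.rpow_add hnp]; norm_num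
    have e3 : 1 ≤ (n : ℝ) ^ ((1 : ℝ) / 2) * (ε * δ) := by
      rwa [div_le_iff₀ hed] at hB
    have e4 : 0 ≤ (n : ℝ) ^ ((1 : ℝ) / 2) := Real.rpow_nonneg hnp.le _
    calc (m : ℝ) ≤ (n : ℝ) ^ ((1 : ℝ) / 2) := hmn.trans e1
      _ ≤ (n : ℝ) ^ ((1 : ℝ) / 2) * ((n : ℝ) ^ ((1 : ℝ) / 2) * (ε * δ)) :=
        le_mul_of_one_le_right e4 e3
      _ = ε * δ * ((n : ℝ) ^ ((1 : ℝ) / 2) * (n : ℝ) ^ ((1 : ℝ) / 2)) := by ring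
      _ = ε * δ * n := by rw [e2]
  have hdn : 0 < δ * n := mul_pos hδ hnp
  have hmg : m ≤ g := by
    have : (m : ℝ) ≤ g := by nlinarith
    exact_mod_cast this
  have key1 : ((m : ℝ) ^ g) ^ 2 ≤ (n : ℝ) ^ ((1 - 2 * ε) * g) := by
    have e1 : (m : ℝ) ^ g ≤ ((n : ℝ) ^ (1 / 2 - ε)) ^ g :=
      pow_le_pow_left₀ (by positivity) hmn g
    have e2 : ((m : ℝ) ^ g) ^ 2 ≤ (((n : ℝ) ^ (1 / 2 - ε)) ^ g) ^ 2 :=
      pow_le_pow_left₀ (by positivity) e1 2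
    have e3 : (((n : ℝ) ^ (1 / 2 - ε)) ^ g) ^ 2 = (n : ℝ) ^ ((1 - 2 * ε) * g) := by
      rw [← pow_mul, ← Real.rpow_natCast, ← Real.rpow_mul hnp.le]
      congr 1
      push_cast
      ring
    exact e3 ▸ e2
  have key2 : ((1 : ℝ) / n) ^ (g - m) = (n : ℝ) ^ ((m : ℝ) - g) := by
    rw [one_div, inv_pow, ← Real.rpow_natCast, ← Real.rpow_neg hnp.le, Nat.cast_sub hmg]
    congr 1
    ring
  have key3 : (n : ℝ) ^ ((1 - 2 * ε) * g) * (n : ℝ) ^ ((m : ℝ) - g) ≤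
      (1 / 1536) ^ n := by
    rw [← Real.rpow_add hnp]
    have e1 : (1 - 2 * ε) * g + ((m : ℝ) - g) ≤ -(ε * δ * n) := by nlinarith
    have e2 : (n : ℝ) ^ (-(ε * δ * n)) = (((n : ℝ) ^ (ε * δ))⁻¹) ^ n := by
      rw [Real.rpow_neg hnp.le, Real.rpow_mul hnp.le, Real.rpow_natCast, inv_pow]
    refine (Real.rpow_le_rpow_of_exponent_le hn1 e1).trans ?_
    rw [e2, one_div]
    refine pow_le_pow_left₀ (by positivity) ?_ n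
    exact inv_anti₀ (by norm_num) hA
  calc ((8 : ℝ) ^ n * (m : ℝ) ^ g) ^ 2 * ((6 : ℝ) ^ n * ((1 : ℝ) / n) ^ (g - m))
      = (384 : ℝ) ^ n * (((m : ℝ) ^ g) ^ 2 * (n : ℝ) ^ ((m : ℝ) - g)) := by
        rw [key2]
        have : (384 : ℝ) ^ n = ((8 : ℝ) ^ n) ^ 2 * (6 : ℝ) ^ n := by
          rw [← pow_mul, mul_comm n 2, pow_mul, ← mul_pow]; norm_num
        rw [this]; ring
    _ ≤ (384 : ℝ) ^ n * ((n : ℝ) ^ ((1 - 2 * ε) * g) * (n : ℝ) ^ ((m : ℝ) - g)) := by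
        gcongr
    _ ≤ (384 : ℝ) ^ n * (1 / 1536) ^ n := by gcongr
    _ = ((1 / 2) ^ n) ^ 2 := by
        rw [← mul_pow, ← pow_mul, mul_comm n 2, pow_mul]; norm_num

end Vale.Agent.P160.Few
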