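import Vale.Agent.P160.Few.Dense
import Vale.Agent.P160.Few.Num2
import Vale.Agent.P160.Main

/-! Assembly of the extension FEW. -/

open Finset

namespace Vale.Agent.P160.Few

theorem fewVal_empty_of_lt {n m g : ℕ} (h : n < g) : FewVal n m g = ∅ := by
  rw [Set.eq_empty_iff_forall_notMem]
  rintro s ⟨v, _, _, T, _, hT⟩
  classical
  have h1 : #{j | v j ∈ T} ≤ n := by
    refine (card_le_univ _).trans ?_
    rw [Fintype.card_fin]
  omega

theorem fewVal_empty_of_zero {n g : ℕ} (h : 1 ≤ g) : FewVal n 0 g = ∅ := by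
  rw [Set.eq_empty_iff_forall_notMem]
  rintro s ⟨v, _, _, T, hT0, hT⟩
  have hT0 : T = ∅ := card_eq_zero.1 (Nat.le_zero.1 hT0)
  subst hT0
  simp at hT
  omega

theorem pr_empty (n : ℕ) : pr n ∅ = 0 := by
  unfold pr
  simp

/-- The upper bound. -/
theorem few_upper {δ ε : ℝ} (hδ : 0 < δ) (hε : 0 < ε) : ∃ n0 : ℕ, ∀ n ≥ n0, ∀ m g : ℕ,
    (m : ℝ) ≤ (n : ℝ) ^ (1 / 2 - ε) → δ * n ≤ g →
    pr n (FewVal n m g) ≤ (n : ℝ) ^ 3 * (1 / 2) ^ n := by
  set ε' : ℝ := min ε (1 / 4) with hε'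
  have he0 : 0 < ε' := lt_min hε (by norm_num)
  have he1 : ε' < 1 / 2 := lt_of_le_of_lt (min_le_right _ _) (by norm_num)
  obtain ⟨n1, h1⟩ := num_dense δ ε' hδ he0 he1
  obtain ⟨n2, h2⟩ := upper_sharp_of (fun S R => chain S R) (ε := 1 / 2) (by norm_num)
  refine ⟨max (max n1 n2) 1, fun n hn m g hm hg => ?_⟩
  have hn1 : n1 ≤ n := ((le_max_left _ _).trans (le_max_left _ _)).trans hn
  have hn2 : n2 ≤ n := ((le_max_right _ _).trans (le_max_left _ _)).trans hn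
  have hn0 : 1 ≤ n := (le_max_right _ _).trans hn
  have hnR : (1 : ℝ) ≤ n := by exact_mod_cast hn0
  have hg1 : 1 ≤ g := by
    have : (0 : ℝ) < g := lt_of_lt_of_le (by positivity) hg
    exact_mod_cast this
  have hpos : (0 : ℝ) ≤ (n : ℝ) ^ 3 * (1 / 2) ^ n := by positivity
  rcases Nat.eq_zero_or_pos m with rfl | hm1
  · rw [fewVal_empty_of_zero hg1, pr_empty]
    exact hpos
  rcases lt_or_ge n g with hgn | hgn
  · rw [fewVal_empty_of_lt hgn, pr_empty]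
    exact hpos
  have hm' : (m : ℝ) ≤ (n : ℝ) ^ (1 / 2 - ε') := by
    refine hm.trans (Real.rpow_le_rpow_of_exponent_le hnR ?_)
    have := min_le_left ε (1 / 4)
    linarith
  have hnum := h1 n hn1 m g hm1 hm' hg hgn
  have hd := dense hn0 hm1 hg1 hgn
  have hd2 : (8 : ℝ) ^ n * (m : ℝ) ^ g * Real.sqrt ((6 : ℝ) ^ n * ((1 : ℝ) / n) ^ (g - m)) ≤
      (1 / 2) ^ n := by
    have hY : (0 : ℝ) ≤ (6 : ℝ) ^ n * ((1 : ℝ) / n) ^ (g - m) := by positivity
    refine le_of_sq_le_sq ?_ (by positivity)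
    rw [mul_pow, Real.sq_sqrt hY]
    exact hnum
  have hsp : pr n (Sparse n (n / 2)) ≤ ((n : ℝ) ^ 3 - 1) * (1 / 2) ^ n := by
    refine h2 n hn2 (n / 2) ?_
    have : ((n / 2 : ℕ) : ℝ) ≤ (n : ℝ) / 2 := Nat.cast_div_le
    linarith
  calc pr n (FewVal n m g)
      ≤ pr n ((FewVal n m g \ Sparse n (n / 2)) ∪ Sparse n (n / 2)) :=
        pr_mono (by rw [Set.sdiff_union_self]; exact Set.subset_union_left)
    _ ≤ pr n (FewVal n m g \ Sparse n (n / 2)) + pr n (Sparse n (n / 2)) := pr_union _ _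
    _ ≤ (1 / 2) ^ n + ((n : ℝ) ^ 3 - 1) * (1 / 2) ^ n := add_le_add (hd.trans hd2) hsp
    _ = (n : ℝ) ^ 3 * (1 / 2) ^ n := by ring

open Classical in
/-- Vectors with at most two nonzero coordinates: the value `0` covers `n - 2` coordinates. -/
theorem sparse_sub {n m g : ℕ} (hm : 1 ≤ m) (hg : g + 2 ≤ n) : Sparse n 2 ⊆ FewVal n m g := by
  rintro s ⟨v, hv, hA, hnz⟩
  refine ⟨v, hv, hA, {0}, by simpa using hm, ?_⟩
  have h1 : #{j | v j ∈ ({0} : Finset ℝ)} + nnz v = n := by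
    unfold nnz
    have h2 := card_filter_add_card_filter_not (s := (univ : Finset (Fin n))) (fun j => v j = 0)
    rw [Finset.card_univ, Fintype.card_fin] at h2
    refine Eq.trans ?_ h2
    congr 2
    ext j
    simp
  omega

/-- The lower bound. -/
theorem few_lower {n m g : ℕ} (hn : 2 ≤ n) (hm : 1 ≤ m) (hg : g + 2 ≤ n) :
    (1 / 2 : ℝ) ^ n ≤ pr n (FewVal n m g) :=
  (low hn le_rfl).trans (pr_mono (sparse_sub hm hg))

/-- The exponential rate is `1/2`. -/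
theorem few_limit {δ ε : ℝ} (hδ : 0 < δ) (hδ1 : δ < 1) (hε : 0 < ε) (hε1 : ε ≤ 1 / 2) :
    Filter.Tendsto (fun n : ℕ => pr n (FewVal n ⌊(n : ℝ) ^ (1 / 2 - ε)⌋₊ ⌈δ * n⌉₊) ^ (1 / (n : ℝ)))
      Filter.atTop (nhds (1 / 2)) := by
  obtain ⟨n0, h0⟩ := few_upper hδ hε
  obtain ⟨n1, h1⟩ := exists_nat_gt (3 / (1 - δ))
  have hpos : 0 < 1 - δ := by linarith
  refine lim_root _ (max n0 (max n1 2)) ?_ ?_
  · intro n hn
    have hn1 : n1 ≤ n := le_trans (le_trans (le_max_left _ _) (le_max_right _ _)) hn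
    have hn2 : 2 ≤ n := le_trans (le_trans (le_max_right _ _) (le_max_right _ _)) hn
    have hnR : (1 : ℝ) ≤ n := by exact_mod_cast (le_trans (by norm_num) hn2)
    apply few_lower hn2
    · rw [Nat.one_le_floor_iff]
      exact Real.one_le_rpow hnR (by linarith)
    · have h2 : 3 / (1 - δ) < n := lt_of_lt_of_le h1 (by exact_mod_cast hn1)
      rw [div_lt_iff₀ hpos] at h2
      have h3 : (⌈δ * n⌉₊ : ℝ) < δ * n + 1 := Nat.ceil_lt_add_one (by positivity)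
      have h4 : ((⌈δ * n⌉₊ + 2 : ℕ) : ℝ) < (n : ℝ) + 1 := by
        push_cast
        nlinarith
      have h5 : ⌈δ * (n : ℝ)⌉₊ + 2 < n + 1 := by exact_mod_cast h4
      omega
  · intro n hn
    exact h0 n (le_trans (le_max_left _ _) hn) _ _ (Nat.floor_le (by positivity)) (Nat.le_ceil _)

open Classical in
/-- What is left of the singularity event. -/
theorem few_split {δ ε : ℝ} (hδ : 0 < δ) (hε : 0 < ε) : ∃ n0 : ℕ, ∀ n ≥ n0, ∀ m g : ℕ,
    (m : ℝ) ≤ (n : ℝ) ^ (1 / 2 - ε) → δ * n ≤ g →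
    pr n {s | (mat s).det = 0} ≤ (n : ℝ) ^ 3 * (1 / 2) ^ n +
      pr n {s | (mat s).det = 0 ∧ ∀ v : Fin n → ℝ, v ≠ 0 → (mat s).mulVec v = 0 →
        ∀ T : Finset ℝ, #T ≤ m → #{j | v j ∈ T} < g} := by
  obtain ⟨n0, h0⟩ := few_upper hδ hε
  refine ⟨n0, fun n hn m g hm hg => ?_⟩
  refine le_trans ?_ (add_le_add_left (h0 n hn m g hm hg) _)
  refine le_trans (pr_mono ?_) (pr_union _ _)
  intro s hs
  by_cases hsp : s ∈ FewVal n m g
  · exact Or.inl hsp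
  · refine Or.inr ⟨hs, fun v hv hAv T hT => ?_⟩
    by_contra hcon
    exact hsp ⟨v, hv, hAv, T, hT, not_lt.1 hcon⟩

end Vale.Agent.P160.Few
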