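import Vale.Agent.P160.Few.Final
import Vale.Agent.P160.Cov
import Vale.Agent.P160.Sub
import Vale.Agent.P160.Bon
import Vale.Agent.P160.Lim2

/-! Sharp asymptotics of the structured part of the singularity event. -/

open Finset

namespace Vale.Agent.P160.Few

theorem sparse_mono {n k l : ℕ} (h : k ≤ l) : Sparse n k ⊆ Sparse n l := by
  rintro s ⟨v, hv, hA, hn⟩
  exact ⟨v, hv, hA, hn.trans h⟩

theorem half_le : ∃ n0 : ℕ, ∀ n ≥ n0, ((n / 2 : ℕ) : ℝ) ≤ n - 2 * n / Real.log n := by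
  refine ⟨⌈Real.exp 4⌉₊, fun n hn => ?_⟩
  have h1 : Real.exp 4 ≤ n := (Nat.le_ceil _).trans (by exact_mod_cast hn)
  have hn0 : (0 : ℝ) < n := (Real.exp_pos 4).trans_le h1
  have h2 : 4 ≤ Real.log n := by
    rw [Real.le_log_iff_exp_le hn0]
    exact h1
  have h3 : ((n / 2 : ℕ) : ℝ) ≤ (n : ℝ) / 2 := Nat.cast_div_le
  have h4 : 2 * (n : ℝ) / Real.log n ≤ n / 2 := by
    rw [div_le_iff₀ (by linarith)]
    nlinarith
  linarith

/-- The few-valued kernel vectors that are not sparse. -/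
theorem few_diff {δ ε : ℝ} (hδ : 0 < δ) (hε : 0 < ε) : ∃ n0 : ℕ, ∀ n ≥ n0, ∀ m g : ℕ,
    (m : ℝ) ≤ (n : ℝ) ^ (1 / 2 - ε) → δ * n ≤ g →
    pr n (FewVal n m g \ Sparse n (n / 2)) ≤ (1 / 2) ^ n := by
  set ε' : ℝ := min ε (1 / 4) with hε'
  have he0 : 0 < ε' := lt_min hε (by norm_num)
  have he1 : ε' < 1 / 2 := lt_of_le_of_lt (min_le_right _ _) (by norm_num)
  obtain ⟨n1, h1⟩ := num_dense δ ε' hδ he0 he1
  refine ⟨max n1 1, fun n hn m g hm hg => ?_⟩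
  have hn1 : n1 ≤ n := (le_max_left _ _).trans hn
  have hn0 : 1 ≤ n := (le_max_right _ _).trans hn
  have hnR : (1 : ℝ) ≤ n := by exact_mod_cast hn0
  have hg1 : 1 ≤ g := by
    have : (0 : ℝ) < g := lt_of_lt_of_le (by positivity) hg
    exact_mod_cast this
  have hpos : (0 : ℝ) ≤ (1 / 2) ^ n := by positivity
  rcases Nat.eq_zero_or_pos m with rfl | hm1
  · rw [fewVal_empty_of_zero hg1, Set.empty_sdiff, pr_empty]
    exact hpos
  rcases lt_or_ge n g with hgn | hgn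
  · rw [fewVal_empty_of_lt hgn, Set.empty_sdiff, pr_empty]
    exact hpos
  have hm' : (m : ℝ) ≤ (n : ℝ) ^ (1 / 2 - ε') := by
    refine hm.trans (Real.rpow_le_rpow_of_exponent_le hnR ?_)
    have := min_le_left ε (1 / 4)
    linarith
  have hnum := h1 n hn1 m g hm1 hm' hg hgn
  have hd := dense hn0 hm1 hg1 hgn
  refine hd.trans ?_
  have hY : (0 : ℝ) ≤ (6 : ℝ) ^ n * ((1 : ℝ) / n) ^ (g - m) := by positivity
  refine le_of_sq_le_sq ?_ (by positivity)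
  rw [mul_pow, Real.sq_sqrt hY]
  exact hnum

/-- The sharp upper bound. -/
theorem str_upper {δ ε : ℝ} (hδ : 0 < δ) (hε : 0 < ε) : ∃ n0 : ℕ, ∀ n ≥ n0, ∀ m g k : ℕ,
    (m : ℝ) ≤ (n : ℝ) ^ (1 / 2 - ε) → δ * n ≤ g → (k : ℝ) ≤ n - 2 * n / Real.log n →
    pr n (FewVal n m g ∪ Sparse n k) ≤ ((n : ℝ) ^ 2 + 1) * (1 / 2) ^ n := by
  obtain ⟨n1, h1⟩ := few_diff hδ hε
  obtain ⟨n2, h2⟩ := half_le
  obtain ⟨n3, h3⟩ := sparse_sharp
  refine ⟨max n1 (max n2 n3), fun n hn m g k hm hg hk => ?_⟩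
  have hn1 : n1 ≤ n := (le_max_left _ _).trans hn
  have hn2 : n2 ≤ n := ((le_max_left _ _).trans (le_max_right _ _)).trans hn
  have hn3 : n3 ≤ n := ((le_max_right _ _).trans (le_max_right _ _)).trans hn
  have hmax : ((max k (n / 2) : ℕ) : ℝ) ≤ n - 2 * n / Real.log n := by
    rcases le_total k (n / 2) with h | h
    · rw [max_eq_right h]
      exact h2 n hn2
    · rw [max_eq_left h]
      exact hk
  have hsub : FewVal n m g ∪ Sparse n k ⊆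
      (FewVal n m g \ Sparse n (n / 2)) ∪ Sparse n (max k (n / 2)) := by
    rintro s (hs | hs)
    · by_cases h : s ∈ Sparse n (n / 2)
      · exact Or.inr (sparse_mono (le_max_right _ _) h)
      · exact Or.inl ⟨hs, h⟩
    · exact Or.inr (sparse_mono (le_max_left _ _) hs)
  calc pr n (FewVal n m g ∪ Sparse n k)
      ≤ pr n ((FewVal n m g \ Sparse n (n / 2)) ∪ Sparse n (max k (n / 2))) := pr_mono hsub
    _ ≤ pr n (FewVal n m g \ Sparse n (n / 2)) + pr n (Sparse n (max k (n / 2))) := pr_union _ _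
    _ ≤ (1 / 2) ^ n + (n : ℝ) ^ 2 * (1 / 2) ^ n :=
        add_le_add (h1 n hn1 m g hm hg) (h3 n hn3 _ hmax)
    _ = ((n : ℝ) ^ 2 + 1) * (1 / 2) ^ n := by ring

theorem dep_few {n m g : ℕ} (hm : 1 ≤ m) (hg : g + 2 ≤ n) : Dep n ⊆ FewVal n m g :=
  (dep_sub le_rfl).trans (sparse_sub hm hg)

open Classical in
/-- What is left of the singularity event. -/
theorem str_split {δ ε : ℝ} (hδ : 0 < δ) (hε : 0 < ε) : ∃ n0 : ℕ, ∀ n ≥ n0, ∀ m g k : ℕ,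
    (m : ℝ) ≤ (n : ℝ) ^ (1 / 2 - ε) → δ * n ≤ g → (k : ℝ) ≤ n - 2 * n / Real.log n →
    pr n {s | (mat s).det = 0} ≤ ((n : ℝ) ^ 2 + 1) * (1 / 2) ^ n +
      pr n {s | (mat s).det = 0 ∧ ∀ v : Fin n → ℝ, v ≠ 0 → (mat s).mulVec v = 0 →
        k < nnz v ∧ ∀ T : Finset ℝ, #T ≤ m → #{j | v j ∈ T} < g} := by
  obtain ⟨n0, h0⟩ := str_upper hδ hε
  refine ⟨n0, fun n hn m g k hm hg hk => ?_⟩
  refine le_trans ?_ (add_le_add_left (h0 n hn m g k hm hg hk) _)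
  refine le_trans (pr_mono ?_) (pr_union _ _)
  intro s hs
  by_cases hsp : s ∈ FewVal n m g ∪ Sparse n k
  · exact Or.inl hsp
  · refine Or.inr ⟨hs, fun v hv hAv => ⟨?_, fun T hT => ?_⟩⟩
    · by_contra hcon
      exact hsp (Or.inr ⟨v, hv, hAv, not_lt.1 hcon⟩)
    · by_contra hcon
      exact hsp (Or.inl ⟨v, hv, hAv, T, hT, not_lt.1 hcon⟩)

/-- The sharp asymptotics. -/
theorem str_limit {δ ε : ℝ} (hδ : 0 < δ) (hε : 0 < ε) (m g k : ℕ → ℕ)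
    (hm : ∀ᶠ n : ℕ in Filter.atTop, 1 ≤ m n ∧ (m n : ℝ) ≤ (n : ℝ) ^ (1 / 2 - ε))
    (hg : ∀ᶠ n : ℕ in Filter.atTop, δ * n ≤ g n ∧ g n + 2 ≤ n)
    (hk : ∀ᶠ n : ℕ in Filter.atTop, 2 ≤ k n ∧ (k n : ℝ) ≤ n - 2 * n / Real.log n)
    (E : ∀ n : ℕ, Set (Sym2 (Fin n) → Bool)) (h1 : ∀ n, 1 ≤ m n → g n + 2 ≤ n → 2 ≤ k n → Dep n ⊆ E n)
    (h2 : ∀ n, E n ⊆ FewVal n (m n) (g n) ∪ Sparse n (k n)) :
    Filter.Tendsto (fun n : ℕ => pr n (E n) / ((n : ℝ) ^ 2 * (1 / 2) ^ n))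
      Filter.atTop (nhds 1) := by
  obtain ⟨n0, h0⟩ := str_upper hδ hε
  obtain ⟨n1, H⟩ := Filter.eventually_atTop.1 (hm.and (hg.and hk))
  refine lim_ratio _ (max n0 n1) (fun n hn => ?_) (fun n hn => ?_)
  · obtain ⟨⟨ha, -⟩, ⟨-, hb⟩, ⟨hc, -⟩⟩ := H n (le_trans (le_max_right _ _) hn)
    exact (dep_lower n).trans (pr_mono (h1 n ha hb hc))
  · obtain ⟨⟨-, ha⟩, ⟨hb, -⟩, ⟨-, hc⟩⟩ := H n (le_trans (le_max_right _ _) hn)
    exact (pr_mono (h2 n)).trans (h0 n (le_trans (le_max_left _ _) hn) _ _ _ ha hb hc)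

/-- The exponential rate. -/
theorem str_root {δ ε : ℝ} (hδ : 0 < δ) (hε : 0 < ε) (m g k : ℕ → ℕ)
    (hm : ∀ᶠ n : ℕ in Filter.atTop, 1 ≤ m n ∧ (m n : ℝ) ≤ (n : ℝ) ^ (1 / 2 - ε))
    (hg : ∀ᶠ n : ℕ in Filter.atTop, δ * n ≤ g n ∧ g n + 2 ≤ n)
    (hk : ∀ᶠ n : ℕ in Filter.atTop, 2 ≤ k n ∧ (k n : ℝ) ≤ n - 2 * n / Real.log n) :
    Filter.Tendsto (fun n : ℕ => pr n (FewVal n (m n) (g n) ∪ Sparse n (k n)) ^ (1 / (n : ℝ)))
      Filter.atTop (nhds (1 / 2)) := by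
  obtain ⟨n0, h0⟩ := str_upper hδ hε
  obtain ⟨n1, H⟩ := Filter.eventually_atTop.1 (hm.and (hg.and hk))
  refine lim_root _ (max (max n0 2) n1) (fun n hn => ?_) (fun n hn => ?_)
  · obtain ⟨⟨ha, -⟩, ⟨-, hb⟩, ⟨hc, -⟩⟩ := H n (le_trans (le_max_right _ _) hn)
    have h2 : 2 ≤ n := le_trans (le_trans (le_max_right _ _) (le_max_left _ _)) hn
    exact (low h2 hc).trans (pr_mono Set.subset_union_right)
  · obtain ⟨⟨-, ha⟩, ⟨hb, -⟩, ⟨-, hc⟩⟩ := H n (le_trans (le_max_right _ _) hn)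
    have h2 : 2 ≤ n := le_trans (le_trans (le_max_right _ _) (le_max_left _ _)) hn
    have h2' : (2 : ℝ) ≤ n := by exact_mod_cast h2
    refine (h0 n (le_trans (le_trans (le_max_left _ _) (le_max_left _ _)) hn) _ _ _ ha hb hc).trans
      (mul_le_mul_of_nonneg_right ?_ (by positivity))
    nlinarith [mul_nonneg (sub_nonneg.2 h2') (sq_nonneg (n : ℝ))]

theorem pr_diff {n : ℕ} {D E : Set (Sym2 (Fin n) → Bool)} (h : D ⊆ E) :
    pr n (E \ D) = pr n E - pr n D := by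
  unfold pr
  rw [← sub_div]
  congr 1
  have h1 : Nat.card (E \ D : Set (Sym2 (Fin n) → Bool)) + Nat.card D = Nat.card E := by
    rw [Nat.card_coe_set_eq, Nat.card_coe_set_eq, Nat.card_coe_set_eq]
    exact Set.ncard_sdiff_add_ncard_of_subset h (Set.toFinite E)
  have h2 : (Nat.card (E \ D : Set (Sym2 (Fin n) → Bool)) : ℝ) + Nat.card D = Nat.card E := by
    exact_mod_cast h1
  linarith

theorem pow_small : ∃ n0 : ℕ, ∀ n : ℕ, n0 ≤ n → 256 * (n : ℝ) ^ 4 * (1 / 2) ^ n ≤ 1 := by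
  have h1 := tendsto_pow_const_div_const_pow_of_one_lt 4 (r := (2 : ℝ)) (by norm_num)
  have h2 : ∀ᶠ n : ℕ in Filter.atTop, (n : ℝ) ^ 4 / 2 ^ n < 1 / 256 :=
    h1.eventually (gt_mem_nhds (by norm_num))
  obtain ⟨n0, h0⟩ := Filter.eventually_atTop.1 h2
  refine ⟨n0, fun n hn => ?_⟩
  have h3 := h0 n hn
  have h4 : (n : ℝ) ^ 4 * (1 / 2) ^ n = (n : ℝ) ^ 4 / 2 ^ n := by
    rw [one_div, inv_pow]
    rfl
  rw [mul_assoc, h4]
  linarith

/-- The structured kernel vectors which are not explained by two parallel columns. -/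
theorem str_rest {δ ε : ℝ} (hδ : 0 < δ) (hε : 0 < ε) : ∃ n0 : ℕ, ∀ n ≥ n0, ∀ m g k : ℕ,
    (m : ℝ) ≤ (n : ℝ) ^ (1 / 2 - ε) → δ * n ≤ g → (k : ℝ) ≤ n - 2 * n / Real.log n →
    pr n ((FewVal n m g ∪ Sparse n k) \ Dep n) ≤ ((n : ℝ) + 2) * (1 / 2) ^ n := by
  obtain ⟨n1, h1⟩ := few_diff hδ hε
  obtain ⟨n2, h2⟩ := half_le
  obtain ⟨n3, h3⟩ := sparse_sharp
  obtain ⟨n4, h4⟩ := pow_small
  refine ⟨max (max n1 4) (max (max n2 n4) n3), fun n hn m g k hm hg hk => ?_⟩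
  have hn1 : n1 ≤ n := ((le_max_left _ _).trans (le_max_left _ _)).trans hn
  have hnf : 4 ≤ n := ((le_max_right _ _).trans (le_max_left _ _)).trans hn
  have hn2 : n2 ≤ n :=
    ((le_max_left _ _).trans ((le_max_left _ _).trans (le_max_right _ _))).trans hn
  have hn4 : n4 ≤ n :=
    ((le_max_right _ _).trans ((le_max_left _ _).trans (le_max_right _ _))).trans hn
  have hn3 : n3 ≤ n := ((le_max_right _ _).trans (le_max_right _ _)).trans hn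
  have hmax : ((max k (n / 2) : ℕ) : ℝ) ≤ n - 2 * n / Real.log n := by
    rcases le_total k (n / 2) with h | h
    · rw [max_eq_right h]
      exact h2 n hn2
    · rw [max_eq_left h]
      exact hk
  have hk2 : 2 ≤ max k (n / 2) := by
    have : n / 2 ≤ max k (n / 2) := le_max_right _ _
    omega
  have hsub : (FewVal n m g ∪ Sparse n k) \ Dep n ⊆
      (FewVal n m g \ Sparse n (n / 2)) ∪ (Sparse n (max k (n / 2)) \ Dep n) := by
    rintro s ⟨hs | hs, hd⟩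
    · by_cases h : s ∈ Sparse n (n / 2)
      · exact Or.inr ⟨sparse_mono (le_max_right _ _) h, hd⟩
      · exact Or.inl ⟨hs, h⟩
    · exact Or.inr ⟨sparse_mono (le_max_left _ _) hs, hd⟩
  have h5 : pr n (Sparse n (max k (n / 2)) \ Dep n) ≤ ((n : ℝ) + 1) * (1 / 2) ^ n := by
    rw [pr_diff (dep_sub hk2)]
    have h6 := h3 n hn3 _ hmax
    have h7 := dep_lower n
    have h8 := h4 n hn4
    have hpos : (0 : ℝ) < (1 / 2) ^ n := by positivity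
    nlinarith
  calc pr n ((FewVal n m g ∪ Sparse n k) \ Dep n)
      ≤ pr n ((FewVal n m g \ Sparse n (n / 2)) ∪ (Sparse n (max k (n / 2)) \ Dep n)) :=
        pr_mono hsub
    _ ≤ pr n (FewVal n m g \ Sparse n (n / 2)) + pr n (Sparse n (max k (n / 2)) \ Dep n) :=
        pr_union _ _
    _ ≤ (1 / 2) ^ n + ((n : ℝ) + 1) * (1 / 2) ^ n := add_le_add (h1 n hn1 m g hm hg) h5
    _ = ((n : ℝ) + 2) * (1 / 2) ^ n := by ring

end Vale.Agent.P160.Few
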